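import Mathlib
import Crest.Prelude.Def_MassAction
import Crest.Agent.Lib.MassAction.Basic

/-!
# First-exit invariance (S0122)

A closed set `K` is forward invariant as soon as solutions make local forward progress in `K`;
in particular for a locally finite family of linear constraints whose active members have
strictly negative derivative along the field (or are conserved along the field).
-/

set_option autoImplicit false

namespace Crest.Agent.MassActionODE

open Crest.AnalysisR.MassAction Set Metric Filter Topology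

variable {d : ℕ}

/-- Local forward progress implies finite-time invariance for closed sets. -/
theorem finiteInv_of_local {v : (Fin d → ℝ) → (Fin d → ℝ)} {K : Set (Fin d → ℝ)}
    (hK : IsClosed K)
    (hloc : ∀ (T : ℝ) (y : ℝ → (Fin d → ℝ)), 0 ≤ T →
      (∀ t ∈ Icc 0 T, HasDerivWithinAt y (v (y t)) (Icc 0 T) t) → y 0 ∈ K →
      ∀ a ∈ Ico 0 T, y a ∈ K → ∀ b, a < b → ∃ t ∈ Ioc a b, t ≤ T ∧ y t ∈ K) :
    FiniteInv v K := by
  intro T y hT hy hy0 t ht
  have hcont : ContinuousOn y (Icc 0 T) := fun u hu => (hy u hu).continuousWithinAt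
  have hcl : IsClosed ({u | y u ∈ K} ∩ Icc 0 T) := by
    have := hcont.preimage_isClosed_of_isClosed isClosed_Icc hK
    rwa [inter_comm] at this
  have hsub := hcl.Icc_subset_of_forall_exists_gt (a := 0) (b := T) hy0 (by
    rintro a ⟨ha, ha'⟩ b hb
    obtain ⟨t, ht, -, hty⟩ := hloc T y hT hy hy0 a ha' ha b hb
    exact ⟨t, hty, ht⟩)
  exact hsub ht

/-- Linear constraints: the local progress step. -/
theorem finiteInv_of_constraints {ι : Type*} {v : (Fin d → ℝ) → (Fin d → ℝ)}
    {A : Set (Fin d → ℝ)} (hA : IsClosed A) (hAinv : FiniteInv v A)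
    (g : ι → (Fin d → ℝ) →L[ℝ] ℝ) (b : ι → ℝ)
    (hlf : ∀ x₀ ∈ A, (∀ l, g l x₀ ≤ b l) → ∃ U ∈ 𝓝 x₀, ∃ J : Finset ι, ∀ x ∈ U, ∀ l ∉ J, g l x ≤ b l)
    (hin : ∀ x₀ ∈ A, (∀ l, g l x₀ ≤ b l) → ∀ l, g l x₀ = b l →
      g l (v x₀) < 0 ∨ ∀ z, g l (v z) = 0) :
    FiniteInv v (A ∩ {x | ∀ l, g l x ≤ b l}) := by
  have hclosed : IsClosed (A ∩ {x | ∀ l, g l x ≤ b l}) := by
    refine hA.inter ?_
    have : {x | ∀ l, g l x ≤ b l} = ⋂ l, {x | g l x ≤ b l} := by
      ext x; simp
    rw [this]
    exact isClosed_iInter fun l => isClosed_le (g l).continuous continuous_const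
  refine finiteInv_of_local hclosed ?_
  intro T y hT hy hy0 a ha haK c hac
  have hyc : ContinuousWithinAt y (Icc 0 T) a :=
    (hy a ⟨ha.1, ha.2.le⟩).continuousWithinAt
  have hA' : ∀ t ∈ Icc 0 T, y t ∈ A := hAinv T y hT hy hy0.1
  obtain ⟨U, hU, J, hJ⟩ := hlf _ haK.1 haK.2
  -- the points near `a` (on the right) lie in `U`
  have hIcc : Icc 0 T ∈ 𝓝[>] a := by
    exact mem_of_superset (Ioo_mem_nhdsGT ha.2) (fun u hu => ⟨by linarith [hu.1, ha.1], hu.2.le⟩)
  have hyr : Tendsto y (𝓝[>] a) (𝓝 (y a)) := by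
    have h1 : Tendsto y (𝓝[Icc 0 T] a) (𝓝 (y a)) := hyc
    refine h1.mono_left ?_
    exact nhdsWithin_le_iff.mpr hIcc
  have hev1 : ∀ᶠ t in 𝓝[>] a, y t ∈ U := hyr hU
  -- each constraint in `J`
  have hevl : ∀ l ∈ J, ∀ᶠ t in 𝓝[>] a, g l (y t) ≤ b l := by
    intro l _
    rcases (haK.2 l).lt_or_eq with hlt | heq
    · have : Tendsto (fun t => g l (y t)) (𝓝[>] a) (𝓝 (g l (y a))) :=
        ((g l).continuous.tendsto (y a)).comp hyr
      exact (this.eventually (gt_mem_nhds hlt)).mono fun t ht => ht.le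
    · rcases hin _ haK.1 haK.2 l heq with hneg | hcons
      · -- strictly decreasing at `a`
        have hd : HasDerivWithinAt (fun t => g l (y t)) (g l (v (y a))) (Icc 0 T) a := by
          have := (g l).hasFDerivAt (x := y a) |>.comp_hasDerivWithinAt a (hy a ⟨ha.1, ha.2.le⟩)
          simpa [Function.comp_def] using this
        have hd2 : HasDerivWithinAt (fun t => g l (y t)) (g l (v (y a))) (Ioi a) a :=
          hd.mono_of_mem_nhdsWithin hIcc
        have hslope := (hasDerivWithinAt_iff_tendsto_slope' (by simp)).mp hd2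
        have hev := hslope.eventually (gt_mem_nhds hneg)
        filter_upwards [hev, self_mem_nhdsWithin] with t ht hta
        have hta' : 0 < t - a := sub_pos.mpr hta
        rw [slope_def_field, div_lt_iff₀ hta', zero_mul] at ht
        linarith
      · -- conserved
        have hd : ∀ u ∈ Ico a T, HasDerivWithinAt (fun t => g l (y t)) 0 (Ici u) u := by
          intro u hu
          have hu' : u ∈ Icc 0 T := ⟨by linarith [hu.1, ha.1], hu.2.le⟩
          have h1 := (g l).hasFDerivAt (x := y u) |>.comp_hasDerivWithinAt u (hy u hu')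
          have h2 : HasDerivWithinAt (fun t => g l (y t)) 0 (Icc 0 T) u := by
            simpa [Function.comp_def, hcons] using h1
          refine (h2.mono_of_mem_nhdsWithin ?_)
          exact mem_of_superset (Ico_mem_nhdsGE hu.2)
            (fun w hw => ⟨by linarith [hw.1, hu.1, ha.1], hw.2.le⟩)
        have hc : ContinuousOn (fun t => g l (y t)) (Icc a T) := fun u hu =>
          ((g l).continuous.continuousAt.comp_continuousWithinAt
            (hy u ⟨by linarith [hu.1, ha.1], hu.2⟩).continuousWithinAt).mono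
            (fun w hw => ⟨by linarith [hw.1, ha.1], hw.2⟩)
        have hconst := constant_of_has_deriv_right_zero hc hd
        filter_upwards [hIcc, self_mem_nhdsWithin] with t ht hta
        have := hconst t ⟨(mem_Ioi.mp hta).le, ht.2⟩
        rw [this, heq]
  have hevJ : ∀ᶠ t in 𝓝[>] a, ∀ l ∈ J, g l (y t) ≤ b l :=
    (Finset.eventually_all J).2 hevl
  have hev3 : ∀ᶠ t in 𝓝[>] a, t ∈ Ioc a c := Ioc_mem_nhdsGT hac
  have hev4 : ∀ᶠ t in 𝓝[>] a, t ∈ Icc 0 T := hIcc
  obtain ⟨t, ht1, ht2, ht3, ht4⟩ := (hev1.and (hevJ.and (hev3.and hev4))).exists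
  refine ⟨t, ht3, ht4.2, hA' t ht4, fun l => ?_⟩
  by_cases hl : l ∈ J
  · exact ht2 l hl
  · exact hJ _ ht1 l hl

end Crest.Agent.MassActionODE
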